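import Vale.Agent.P046.Track.Defs

/-!
A fixed edge survives random triangle removal with probability bounded below as soon as
edge-disjoint killer triangles meet all of its triangles.
-/

namespace Vale.Agent.P046.Low

open Track

open Finset
open scoped Classical

variable {n : ℕ}

/-- The number of triangles of `G` through an edge. -/
noncomputable def tdeg (G : Finset (Sym2 (Fin n))) (e : Sym2 (Fin n)) : ℕ :=
  ((triangles G).filter fun T => e ∈ edgesOf T).card

lemma Ev_mono {φ ψ : Finset (Sym2 (Fin n)) → ℝ} (h : ∀ H, φ H ≤ ψ H)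
    (G : Finset (Sym2 (Fin n))) : Ev φ G ≤ Ev ψ G := by
  induction hk : G.card using Nat.strong_induction_on generalizing G with
  | _ k ih =>
    by_cases ht : triangles G = ∅
    · rw [Ev_of_empty ht, Ev_of_empty ht]; exact h G
    · rw [Ev_of_nonempty ht, Ev_of_nonempty ht]
      exact div_le_div_of_nonneg_right
        (sum_le_sum fun T hT => ih _ (hk ▸ card_sdiff_lt_of_triangle hT) _ rfl) (Nat.cast_nonneg _)

lemma Ev_sum {ι : Type*} (s : Finset ι) (φ : ι → Finset (Sym2 (Fin n)) → ℝ)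
    (G : Finset (Sym2 (Fin n))) : Ev (fun H => ∑ i ∈ s, φ i H) G = ∑ i ∈ s, Ev (φ i) G := by
  induction hk : G.card using Nat.strong_induction_on generalizing G with
  | _ k ih =>
    by_cases ht : triangles G = ∅
    · simp [Ev_of_empty ht]
    · simp only [Ev_of_nonempty ht]
      rw [← Finset.sum_div, Finset.sum_comm (s := s)]
      congr 1
      exact sum_congr rfl fun T hT => ih _ (hk ▸ card_sdiff_lt_of_triangle hT) _ rfl

lemma Ev_nonneg {φ : Finset (Sym2 (Fin n)) → ℝ} (h : ∀ H, 0 ≤ φ H)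
    (G : Finset (Sym2 (Fin n))) : 0 ≤ Ev φ G := by
  induction hk : G.card using Nat.strong_induction_on generalizing G with
  | _ k ih =>
    by_cases ht : triangles G = ∅
    · rw [Ev_of_empty ht]; exact h G
    · rw [Ev_of_nonempty ht]
      exact div_nonneg (sum_nonneg fun T hT => ih _ (hk ▸ card_sdiff_lt_of_triangle hT) _ rfl)
        (Nat.cast_nonneg _)

lemma mem_tri {G : Finset (Sym2 (Fin n))} {T : Finset (Fin n)} :
    T ∈ triangles G ↔ T.card = 3 ∧ edgesOf T ⊆ G := by
  simp [triangles]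

lemma tri_sdiff {G : Finset (Sym2 (Fin n))} {r T : Finset (Fin n)} :
    T ∈ triangles (G \ edgesOf r) ↔ T ∈ triangles G ∧ Disjoint (edgesOf T) (edgesOf r) := by
  simp [mem_tri, subset_sdiff, and_assoc]

/-- Edge-disjoint triangles avoiding `e` and meeting every triangle through `e`. -/
structure Killers (G : Finset (Sym2 (Fin n))) (e : Sym2 (Fin n))
    (R : Finset (Finset (Fin n))) : Prop where
  mem : e ∈ G
  sub : R ⊆ triangles G
  avoid : ∀ r ∈ R, e ∉ edgesOf r
  disj : ∀ r ∈ R, ∀ s ∈ R, r ≠ s → Disjoint (edgesOf r) (edgesOf s)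
  cover : ∀ T ∈ triangles G, e ∈ edgesOf T → ∃ r ∈ R, ¬Disjoint (edgesOf T) (edgesOf r)

/-- The triangles competing with the killers. -/
noncomputable def rivals (G : Finset (Sym2 (Fin n))) (e : Sym2 (Fin n))
    (R : Finset (Finset (Fin n))) : Finset (Finset (Fin n)) :=
  (triangles G).filter fun T => e ∈ edgesOf T ∨ ∃ r ∈ R, ¬Disjoint (edgesOf T) (edgesOf r)

/-- The indicator that `e` is present. -/
noncomputable def present (e : Sym2 (Fin n)) (H : Finset (Sym2 (Fin n))) : ℝ :=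
  if e ∈ H then 1 else 0

lemma present_nonneg (e : Sym2 (Fin n)) (H : Finset (Sym2 (Fin n))) : 0 ≤ present e H := by
  unfold present; split <;> norm_num

/-- The survival bound. -/
theorem surv_lower (D : ℕ) (hD : 0 < D) {G : Finset (Sym2 (Fin n))} {e : Sym2 (Fin n)}
    {R : Finset (Finset (Fin n))} (h : Killers G e R) (hN : (rivals G e R).card ≤ D) :
    (1 / (D : ℝ)) ^ R.card ≤ Ev (present e) G := by
  induction hk : G.card using Nat.strong_induction_on generalizing G R with
  | _ k ih =>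
    have hD' : (0 : ℝ) < D := by exact_mod_cast hD
    by_cases ht : triangles G = ∅
    · rw [Ev_of_empty ht, present, if_pos h.mem]
      have : R = ∅ := subset_empty.1 (ht ▸ h.sub)
      simp [this]
    rw [Ev_of_nonempty ht]
    set Tr := triangles G with hTr
    set Nv := rivals G e R with hNv
    have hRN : R ⊆ Nv := by
      intro r hr
      refine mem_filter.2 ⟨h.sub hr, Or.inr ⟨r, hr, ?_⟩⟩
      obtain ⟨x, hx⟩ := edgesOf_nonempty (mem_tri.1 (h.sub hr)).1
      exact not_disjoint_iff.2 ⟨x, hx, hx⟩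
    have hsub : Nv ⊆ Tr := filter_subset _ _
    have hstep : ∀ r ∈ Tr, ∀ R' ⊆ R, e ∉ edgesOf r →
        (∀ s ∈ R', Disjoint (edgesOf s) (edgesOf r)) →
        (∀ T ∈ Tr, e ∈ edgesOf T → Disjoint (edgesOf T) (edgesOf r) →
          ∃ s ∈ R', ¬Disjoint (edgesOf T) (edgesOf s)) →
        (1 / (D : ℝ)) ^ R'.card ≤ Ev (present e) (G \ edgesOf r) := by
      intro r hr R' hR' hav hdis hcov
      refine ih _ (hk ▸ card_sdiff_lt_of_triangle hr) ?_ ?_ rfl
      · exact ⟨mem_sdiff.2 ⟨h.mem, hav⟩, fun s hs => tri_sdiff.2 ⟨h.sub (hR' hs), hdis s hs⟩,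
          fun s hs => h.avoid s (hR' hs), fun a ha b hb => h.disj a (hR' ha) b (hR' hb),
          fun T hT he => hcov T (tri_sdiff.1 hT).1 he (tri_sdiff.1 hT).2⟩
      · refine le_trans (card_le_card ?_) hN
        intro T hT
        obtain ⟨hT1, hT2⟩ := mem_filter.1 hT
        refine mem_filter.2 ⟨(tri_sdiff.1 hT1).1, hT2.imp_right ?_⟩
        exact fun ⟨s, hs, hd⟩ => ⟨s, hR' hs, hd⟩
    have h1 : ∀ r ∈ R, (1 / (D : ℝ)) ^ (R.card - 1) ≤ Ev (present e) (G \ edgesOf r) := by
      intro r hr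
      rw [← card_erase_of_mem hr]
      refine hstep r (h.sub hr) _ (erase_subset _ _) (h.avoid r hr)
        (fun s hs => h.disj s (mem_of_mem_erase hs) r hr (ne_of_mem_erase hs)) ?_
      intro T hT he hd
      obtain ⟨s, hs, hs'⟩ := h.cover T hT he
      exact ⟨s, mem_erase.2 ⟨fun hsr => hs' (hsr ▸ hd), hs⟩, hs'⟩
    have h2 : ∀ r ∈ Tr \ Nv, (1 / (D : ℝ)) ^ R.card ≤ Ev (present e) (G \ edgesOf r) := by
      intro r hr
      obtain ⟨hr1, hr2⟩ := mem_sdiff.1 hr
      have hr3 : e ∉ edgesOf r ∧ ∀ s ∈ R, Disjoint (edgesOf r) (edgesOf s) := by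
        refine ⟨fun hc => hr2 (mem_filter.2 ⟨hr1, Or.inl hc⟩), fun s hs => ?_⟩
        by_contra hc
        exact hr2 (mem_filter.2 ⟨hr1, Or.inr ⟨s, hs, hc⟩⟩)
      exact hstep r hr1 R subset_rfl hr3.1 (fun s hs => (hr3.2 s hs).symm)
        (fun T hT he _ => h.cover T hT he)
    have h3 : ∀ r ∈ Nv \ R, 0 ≤ Ev (present e) (G \ edgesOf r) := fun r _ =>
      Ev_nonneg (present_nonneg e) _
    have hTpos : (0 : ℝ) < Tr.card := by
      exact_mod_cast Finset.card_pos.2 (nonempty_iff_ne_empty.2 ht)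
    rw [le_div_iff₀ hTpos, ← sum_sdiff hsub, ← sum_sdiff hRN]
    have hc1 := card_nsmul_le_sum _ _ _ h1
    have hc2 := card_nsmul_le_sum _ _ _ h2
    have hc3 : 0 ≤ ∑ r ∈ Nv \ R, Ev (present e) (G \ edgesOf r) := sum_nonneg h3
    rw [nsmul_eq_mul] at hc1 hc2
    have hcard : (Tr.card : ℝ) = ((Tr \ Nv).card : ℝ) + Nv.card := by
      exact_mod_cast (card_sdiff_add_card_eq_card hsub).symm
    have key : (Nv.card : ℝ) * (1 / (D : ℝ)) ^ R.card
        ≤ (R.card : ℝ) * (1 / (D : ℝ)) ^ (R.card - 1) := by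
      rcases R.eq_empty_or_nonempty with hR | hR
      · have : Nv = ∅ := by
          refine eq_empty_of_forall_notMem fun T hT => ?_
          obtain ⟨hT1, hT2⟩ := mem_filter.1 hT
          rcases hT2 with he | ⟨r, hr, -⟩
          · obtain ⟨r, hr, -⟩ := h.cover T hT1 he
            simp [hR] at hr
          · simp [hR] at hr
        simp [this, hR]
      · obtain ⟨j, hj⟩ : ∃ j, R.card = j + 1 := ⟨R.card - 1, by
          have := hR.card_pos; omega⟩
        rw [hj, Nat.add_sub_cancel, pow_succ, mul_comm ((1 / (D : ℝ)) ^ j) (1 / D : ℝ), ← mul_assoc]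
        refine mul_le_mul_of_nonneg_right ?_ (by positivity)
        rw [mul_one_div, div_le_iff₀ hD']
        have h' : (Nv.card : ℝ) ≤ D := by exact_mod_cast hN
        push_cast
        nlinarith [mul_nonneg (Nat.cast_nonneg (α := ℝ) j) hD'.le]
    rw [hcard, mul_add]
    linarith [mul_comm ((1 / (D : ℝ)) ^ R.card) ((Tr \ Nv).card : ℝ),
      mul_comm ((1 / (D : ℝ)) ^ R.card) (Nv.card : ℝ)]

end Vale.Agent.P046.Low
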